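import Mathlib
import Vale.Agent.Lib.P302.helper23.D74.Data0
import Vale.Agent.Lib.P302.helper23.D74.Data1
import Vale.Agent.Lib.P302.helper23.D74.Data2
import Vale.Agent.Lib.P302.helper23.D74.Data3
import Vale.Agent.Lib.P302.helper23.D74.Data4
import Vale.Agent.Lib.P302.helper23.D74.Data5
import Vale.Agent.Lib.P302.helper23.D74.Data6
import Vale.Agent.Lib.P302.helper23.D74.Data7
import Vale.Agent.Lib.P302.helper23.D74.Data8
import Vale.Agent.Lib.P302.helper23.D74.Data9

/-! The layers of the triple search for the 74-item instance, as lists of states. -/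

namespace Vale.Agent.Lib.P302.helper23.D74

/-- The states of layer 0. -/
def layer_0 : List (List ℕ) := c_0_0

/-- The states of layer 1. -/
def layer_1 : List (List ℕ) := c_1_0

/-- The states of layer 2. -/
def layer_2 : List (List ℕ) := c_2_0

/-- The states of layer 3. -/
def layer_3 : List (List ℕ) := c_3_0

/-- The states of layer 4. -/
def layer_4 : List (List ℕ) := c_4_0 ++ (c_4_1)

/-- The states of layer 5. -/
def layer_5 : List (List ℕ) := c_5_0 ++ (c_5_1 ++ (c_5_2))

/-- The states of layer 6. -/
def layer_6 : List (List ℕ) := c_6_0 ++ (c_6_1 ++ (c_6_2 ++ (c_6_3)))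

/-- The states of layer 7. -/
def layer_7 : List (List ℕ) := c_7_0 ++ (c_7_1 ++ (c_7_2 ++ (c_7_3 ++ (c_7_4 ++ (c_7_5 ++ (c_7_6 ++ (c_7_7)))))))

/-- The states of layer 8. -/
def layer_8 : List (List ℕ) := c_8_0 ++ (c_8_1 ++ (c_8_2 ++ (c_8_3 ++ (c_8_4 ++ (c_8_5 ++ (c_8_6 ++ (c_8_7 ++ (c_8_8 ++ (c_8_9)))))))))

/-- The states of layer 9. -/
def layer_9 : List (List ℕ) := c_9_0 ++ (c_9_1 ++ (c_9_2 ++ (c_9_3 ++ (c_9_4))))

/-- The states of layer 10. -/
def layer_10 : List (List ℕ) := c_10_0

/-- The states of layer 11. -/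
def layer_11 : List (List ℕ) := c_11_0

/-- The states of layer 12. -/
def layer_12 : List (List ℕ) := c_12_0

/-- The states of layer 13. -/
def layer_13 : List (List ℕ) := c_13_0

/-- The states of layer 14. -/
def layer_14 : List (List ℕ) := c_14_0 ++ (c_14_1)

/-- The states of layer 15. -/
def layer_15 : List (List ℕ) := c_15_0

/-- The states of layer 16. -/
def layer_16 : List (List ℕ) := c_16_0

/-- The states of layer 17. -/
def layer_17 : List (List ℕ) := c_17_0

/-- The states of layer 18. -/
def layer_18 : List (List ℕ) := c_18_0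

/-- The states of layer 19. -/
def layer_19 : List (List ℕ) := c_19_0

/-- The states of layer 20. -/
def layer_20 : List (List ℕ) := c_20_0

/-- The states of layer 21. -/
def layer_21 : List (List ℕ) := c_21_0

/-- The last layer is empty. -/
def layer_22 : List (List ℕ) := []

end Vale.Agent.Lib.P302.helper23.D74
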