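import Mathlib
import Vale.Agent.Lib.P302.lead.Chunk
import Vale.Agent.Lib.P302.helper23.D74.Layers

/-! Kernel checks of chunks of the triple search for the 74-item instance. -/

namespace Vale.Agent.Lib.P302.helper23.D74

open Vale.Agent.Lib.P302.helper14 Vale.Agent.Lib.P302.lead

theorem ok_0_0 : stepOK 1500000000 c_0_0 layer_1 = true := by decide +kernel

theorem ok_1_0 : stepOK 1500000000 c_1_0 layer_2 = true := by decide +kernel

theorem ok_2_0 : stepOK 1500000000 c_2_0 layer_3 = true := by decide +kernel

theorem ok_3_0 : stepOK 1500000000 c_3_0 layer_4 = true := by decide +kernel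

theorem ok_4_0 : stepOK 1500000000 c_4_0 layer_5 = true := by decide +kernel

end Vale.Agent.Lib.P302.helper23.D74
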