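import Mathlib
import Vale.Agent.Lib.P302.lead.Chunk
import Vale.Agent.Lib.P302.helper23.D74.Layers

/-! Kernel checks of chunks of the triple search for the 74-item instance. -/

namespace Vale.Agent.Lib.P302.helper23.D74

open Vale.Agent.Lib.P302.helper14 Vale.Agent.Lib.P302.lead

theorem ok_15_0 : stepOK 1500000000 c_15_0 layer_16 = true := by decide +kernel

theorem ok_16_0 : stepOK 1500000000 c_16_0 layer_17 = true := by decide +kernel

theorem ok_17_0 : stepOK 1500000000 c_17_0 layer_18 = true := by decide +kernel

theorem ok_18_0 : stepOK 1500000000 c_18_0 layer_19 = true := by decide +kernel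

theorem ok_19_0 : stepOK 1500000000 c_19_0 layer_20 = true := by decide +kernel

theorem ok_20_0 : stepOK 1500000000 c_20_0 layer_21 = true := by decide +kernel

theorem ok_21_0 : stepOK 1500000000 c_21_0 layer_22 = true := by decide +kernel

end Vale.Agent.Lib.P302.helper23.D74
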