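import Mathlib
import Vale.Agent.Lib.P302.lead.Chunk
import Vale.Agent.Lib.P302.helper23.D74.Layers

/-! Kernel checks of chunks of the triple search for the 74-item instance. -/

namespace Vale.Agent.Lib.P302.helper23.D74

open Vale.Agent.Lib.P302.helper14 Vale.Agent.Lib.P302.lead

theorem ok_7_1 : stepOK 1500000000 c_7_1 layer_8 = true := by decide +kernel

theorem ok_7_2 : stepOK 1500000000 c_7_2 layer_8 = true := by decide +kernel

theorem ok_7_3 : stepOK 1500000000 c_7_3 layer_8 = true := by decide +kernel

end Vale.Agent.Lib.P302.helper23.D74
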