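import Mathlib
import Vale.Agent.Lib.P302.lead.Chunk
import Vale.Agent.Lib.P302.helper23.D74.Layers
import Vale.Agent.Lib.P302.helper23.D74.Chk0
import Vale.Agent.Lib.P302.helper23.D74.Chk1
import Vale.Agent.Lib.P302.helper23.D74.Chk2
import Vale.Agent.Lib.P302.helper23.D74.Chk3
import Vale.Agent.Lib.P302.helper23.D74.Chk4
import Vale.Agent.Lib.P302.helper23.D74.Chk5
import Vale.Agent.Lib.P302.helper23.D74.Chk6
import Vale.Agent.Lib.P302.helper23.D74.Chk7
import Vale.Agent.Lib.P302.helper23.D74.Chk8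
import Vale.Agent.Lib.P302.helper23.D74.Chk9
import Vale.Agent.Lib.P302.helper23.D74.Chk10
import Vale.Agent.Lib.P302.helper23.D74.Chk11
import Vale.Agent.Lib.P302.helper23.D74.Chk12

/-! No state of any layer of the triple search for the 74-item instance has a triple partition. -/

namespace Vale.Agent.Lib.P302.helper23.D74

open Vale.Agent.Lib.P302.helper14 Vale.Agent.Lib.P302.lead

theorem noTri_22 : ∀ s ∈ layer_22, ¬ TriPart 1500000000 (s : Multiset ℕ) := noTri_nil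

theorem noTri_21 : ∀ s ∈ layer_21, ¬ TriPart 1500000000 (s : Multiset ℕ) :=
  (stepOK_sound ok_21_0 noTri_22)

theorem noTri_20 : ∀ s ∈ layer_20, ¬ TriPart 1500000000 (s : Multiset ℕ) :=
  (stepOK_sound ok_20_0 noTri_21)

theorem noTri_19 : ∀ s ∈ layer_19, ¬ TriPart 1500000000 (s : Multiset ℕ) :=
  (stepOK_sound ok_19_0 noTri_20)

theorem noTri_18 : ∀ s ∈ layer_18, ¬ TriPart 1500000000 (s : Multiset ℕ) :=
  (stepOK_sound ok_18_0 noTri_19)

theorem noTri_17 : ∀ s ∈ layer_17, ¬ TriPart 1500000000 (s : Multiset ℕ) :=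
  (stepOK_sound ok_17_0 noTri_18)

theorem noTri_16 : ∀ s ∈ layer_16, ¬ TriPart 1500000000 (s : Multiset ℕ) :=
  (stepOK_sound ok_16_0 noTri_17)

theorem noTri_15 : ∀ s ∈ layer_15, ¬ TriPart 1500000000 (s : Multiset ℕ) :=
  (stepOK_sound ok_15_0 noTri_16)

theorem noTri_14 : ∀ s ∈ layer_14, ¬ TriPart 1500000000 (s : Multiset ℕ) :=
  (noTri_append (stepOK_sound ok_14_0 noTri_15)
    (stepOK_sound ok_14_1 noTri_15))

theorem noTri_13 : ∀ s ∈ layer_13, ¬ TriPart 1500000000 (s : Multiset ℕ) :=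
  (stepOK_sound ok_13_0 noTri_14)

theorem noTri_12 : ∀ s ∈ layer_12, ¬ TriPart 1500000000 (s : Multiset ℕ) :=
  (stepOK_sound ok_12_0 noTri_13)

theorem noTri_11 : ∀ s ∈ layer_11, ¬ TriPart 1500000000 (s : Multiset ℕ) :=
  (stepOK_sound ok_11_0 noTri_12)

theorem noTri_10 : ∀ s ∈ layer_10, ¬ TriPart 1500000000 (s : Multiset ℕ) :=
  (stepOK_sound ok_10_0 noTri_11)

theorem noTri_9 : ∀ s ∈ layer_9, ¬ TriPart 1500000000 (s : Multiset ℕ) :=
  (noTri_append (stepOK_sound ok_9_0 noTri_10)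
    (noTri_append (stepOK_sound ok_9_1 noTri_10)
    (noTri_append (stepOK_sound ok_9_2 noTri_10)
    (noTri_append (stepOK_sound ok_9_3 noTri_10)
    (stepOK_sound ok_9_4 noTri_10)))))

theorem noTri_8 : ∀ s ∈ layer_8, ¬ TriPart 1500000000 (s : Multiset ℕ) :=
  (noTri_append (stepOK_sound ok_8_0 noTri_9)
    (noTri_append (stepOK_sound ok_8_1 noTri_9)
    (noTri_append (stepOK_sound ok_8_2 noTri_9)
    (noTri_append (stepOK_sound ok_8_3 noTri_9)
    (noTri_append (stepOK_sound ok_8_4 noTri_9)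
    (noTri_append (stepOK_sound ok_8_5 noTri_9)
    (noTri_append (stepOK_sound ok_8_6 noTri_9)
    (noTri_append (stepOK_sound ok_8_7 noTri_9)
    (noTri_append (stepOK_sound ok_8_8 noTri_9)
    (stepOK_sound ok_8_9 noTri_9))))))))))

theorem noTri_7 : ∀ s ∈ layer_7, ¬ TriPart 1500000000 (s : Multiset ℕ) :=
  (noTri_append (stepOK_sound ok_7_0 noTri_8)
    (noTri_append (stepOK_sound ok_7_1 noTri_8)
    (noTri_append (stepOK_sound ok_7_2 noTri_8)
    (noTri_append (stepOK_sound ok_7_3 noTri_8)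
    (noTri_append (stepOK_sound ok_7_4 noTri_8)
    (noTri_append (stepOK_sound ok_7_5 noTri_8)
    (noTri_append (stepOK_sound ok_7_6 noTri_8)
    (stepOK_sound ok_7_7 noTri_8))))))))

theorem noTri_6 : ∀ s ∈ layer_6, ¬ TriPart 1500000000 (s : Multiset ℕ) :=
  (noTri_append (stepOK_sound ok_6_0 noTri_7)
    (noTri_append (stepOK_sound ok_6_1 noTri_7)
    (noTri_append (stepOK_sound ok_6_2 noTri_7)
    (stepOK_sound ok_6_3 noTri_7))))

theorem noTri_5 : ∀ s ∈ layer_5, ¬ TriPart 1500000000 (s : Multiset ℕ) :=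
  (noTri_append (stepOK_sound ok_5_0 noTri_6)
    (noTri_append (stepOK_sound ok_5_1 noTri_6)
    (stepOK_sound ok_5_2 noTri_6)))

theorem noTri_4 : ∀ s ∈ layer_4, ¬ TriPart 1500000000 (s : Multiset ℕ) :=
  (noTri_append (stepOK_sound ok_4_0 noTri_5)
    (stepOK_sound ok_4_1 noTri_5))

theorem noTri_3 : ∀ s ∈ layer_3, ¬ TriPart 1500000000 (s : Multiset ℕ) :=
  (stepOK_sound ok_3_0 noTri_4)

theorem noTri_2 : ∀ s ∈ layer_2, ¬ TriPart 1500000000 (s : Multiset ℕ) :=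
  (stepOK_sound ok_2_0 noTri_3)

theorem noTri_1 : ∀ s ∈ layer_1, ¬ TriPart 1500000000 (s : Multiset ℕ) :=
  (stepOK_sound ok_1_0 noTri_2)

theorem noTri_0 : ∀ s ∈ layer_0, ¬ TriPart 1500000000 (s : Multiset ℕ) :=
  (stepOK_sound ok_0_0 noTri_1)

end Vale.Agent.Lib.P302.helper23.D74
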